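import Crest.Agent.N250.El.Defs

-- ▼ part N250/El/HatB
section

/-!
# Row 250, end limit (helper30): the renormalised parameter, Cauchy estimates, dyadic discs
-/

set_option autoImplicit false
open Set Filter Topology Metric

noncomputable section

namespace Crest.Agent.N250.El

open Gi (hat Lam)
open B1 (et Adm)

variable {W : Type*} [NormedAddCommGroup W] [NormedSpace ℂ W]

/-- Cauchy estimate, Lipschitz form -/
lemma lip_of_bd {f : ℂ → W} {S T : Set ℂ} {δ M : ℝ} (hS : Convex ℝ S) (hT : IsOpen T) (hδ : 0 < δ)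
    (hST : ∀ a ∈ S, closedBall a δ ⊆ T) (hf : DifferentiableOn ℂ f T) (hM : ∀ z ∈ T, ‖f z‖ ≤ M)
    {a a' : ℂ} (ha : a ∈ S) (ha' : a' ∈ S) : ‖f a - f a'‖ ≤ M / δ * ‖a - a'‖ := by
  refine hS.norm_image_sub_le_of_norm_deriv_le (𝕜 := ℂ) (fun x hx => ?_) (fun x hx => ?_) ha' ha
  · exact hf.differentiableAt (hT.mem_nhds (hST x hx (mem_closedBall_self hδ.le)))
  · refine Complex.norm_deriv_le_of_forall_mem_sphere_norm_le hδ ?_
      fun z hz => hM z (hST x hx (sphere_subset_closedBall hz))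
    refine DifferentiableOn.diffContOnCl ?_
    rw [closure_ball x hδ.ne']
    exact hf.mono (hST x hx)

lemma hasDerivAt_et (X a : ℂ) : HasDerivAt (fun a => et a X) ((X ^ 2 - 2) / 2) a := by
  unfold et
  have := ((((hasDerivAt_id a).mul_const (X ^ 2 - 2))).div_const 2).const_add 1
  simpa using this

lemma hasDerivAt_Lam {X : ℝ} {a : ℂ} (h : 0 < (et a X).re) :
    HasDerivAt (Lam X) (-(((X : ℂ) ^ 2 - 2) / 2 / et a X)) a := by
  unfold Lam
  exact ((hasDerivAt_et X a).clog (Or.inl h)).const_sub _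

lemma hasDerivAt_rem {X : ℝ} {a : ℂ} (h : 0 < (et a X).re) :
    HasDerivAt (fun a => a ^ 2 * Lam X a)
      (2 * a * Lam X a - a ^ 2 * (((X : ℂ) ^ 2 - 2) / 2 / et a X)) a := by
  refine ((hasDerivAt_pow 2 a).mul (hasDerivAt_Lam h)).congr_deriv ?_
  push_cast; ring

lemma hasDerivAt_hat' {X : ℝ} {a : ℂ} (h : 0 < (et a X).re) :
    HasDerivAt (hat X)
      (1 + (2 * a * Lam X a - a ^ 2 * (((X : ℂ) ^ 2 - 2) / 2 / et a X))) a :=
  (hasDerivAt_id a).add (hasDerivAt_rem h)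

lemma norm_half {X : ℝ} (hX : 2 ≤ X) : ‖((X : ℂ) ^ 2 - 2) / 2‖ ≤ X ^ 2 / 2 := by
  have : ((X : ℂ) ^ 2 - 2) / 2 = (((X ^ 2 - 2) / 2 : ℝ) : ℂ) := by push_cast; ring
  rw [this, Complex.norm_real, Real.norm_of_nonneg (by nlinarith)]
  linarith

/-- `log X² + 1` -/
def lg (X : ℝ) : ℝ := Real.log (X ^ 2) + 1

/-- large cuts -/
structure Big (X : ℝ) : Prop where
  ge : 100 ≤ X
  lg : lg X ^ 2 ≤ X

lemma lg_ge {X : ℝ} (hX : 1 ≤ X) : 1 ≤ lg X := by
  have := Real.log_nonneg (show 1 ≤ X ^ 2 by nlinarith)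
  unfold lg; linarith

lemma lg_le {X p : ℝ} (hX : 1 ≤ X) (hp : 0 < p) : lg X ≤ (2 / p + 1) * X ^ p := by
  have h1 := Real.log_le_rpow_div (show 0 ≤ X by linarith) hp
  have h2 : 1 ≤ X ^ p := Real.one_le_rpow hX hp.le
  unfold lg
  rw [Real.log_pow]
  have : (2 / p + 1) * X ^ p = 2 * (X ^ p / p) + X ^ p := by ring
  push_cast; linarith

lemma big_of {X : ℝ} (hX : 6561 ≤ X) : Big X := by
  refine ⟨by linarith, ?_⟩
  have h1 := lg_le (X := X) (p := 1 / 4) (by linarith) (by norm_num)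
  have h0 : 0 < X := by linarith
  set y := X ^ (1 / 4 : ℝ) with hy
  have hy0 : 0 ≤ y := by positivity
  have h2 : y ^ 4 = X := by rw [hy, ← Real.rpow_natCast, ← Real.rpow_mul h0.le]; norm_num
  have h3 : 9 ≤ y := by
    by_contra hc
    have : y ^ 4 < 9 ^ 4 := pow_lt_pow_left₀ (not_le.1 hc) hy0 (by norm_num)
    linarith
  have h4 := lg_ge (X := X) (by linarith)
  have h5 : lg X ≤ y ^ 2 := by nlinarith
  calc lg X ^ 2 ≤ (y ^ 2) ^ 2 := pow_le_pow_left₀ (by linarith) h5 2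
    _ = X := by rw [← h2]; ring

lemma Big.lg_le {X : ℝ} (h : Big X) : El.lg X ≤ X / 10 := by
  have h1 := h.lg
  have h2 := h.ge
  have h3 := lg_ge (X := X) (by linarith)
  nlinarith

section easy

variable {X : ℝ} {a : ℂ}

lemma et_sub_le (hX : 2 ≤ X) (ha : ‖a‖ ≤ 2 / 5 / X ^ 2) : ‖et a X - 1‖ ≤ 1 / 5 := by
  have e : et a X - 1 = a * (((X : ℂ) ^ 2 - 2) / 2) := by unfold et; ring
  have h0 : 0 < X ^ 2 := by positivity
  rw [e, norm_mul]
  calc ‖a‖ * ‖((X : ℂ) ^ 2 - 2) / 2‖ ≤ (2 / 5 / X ^ 2) * (X ^ 2 / 2) := by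
        gcongr; exact norm_half hX
    _ = 1 / 5 := by field_simp

lemma et_re_ge (hX : 2 ≤ X) (ha : ‖a‖ ≤ 2 / 5 / X ^ 2) : 4 / 5 ≤ (et a X).re := by
  have h1 := et_sub_le hX ha
  have h2 := Complex.abs_re_le_norm (et a X - 1)
  have h3 := neg_abs_le (et a X - 1).re
  rw [Complex.sub_re, Complex.one_re] at h2 h3
  linarith

lemma Lam_le (hX : 2 ≤ X) (ha : ‖a‖ ≤ 2 / 5 / X ^ 2) : ‖Lam X a‖ ≤ lg X := by
  have h1 := et_sub_le hX ha
  have h2 := Complex.norm_log_one_add_half_le_self (z := et a X - 1) (by linarith)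
  rw [add_sub_cancel] at h2
  have h3 : 0 ≤ Real.log (X ^ 2) := Real.log_nonneg (by nlinarith)
  unfold Lam lg
  refine (norm_sub_le _ _).trans ?_
  rw [Complex.norm_real, Real.norm_of_nonneg h3]
  linarith

lemma rem_lip (hX : 2 ≤ X) {a' : ℂ} (ha : ‖a‖ ≤ 2 / 5 / X ^ 2) (ha' : ‖a'‖ ≤ 2 / 5 / X ^ 2) :
    ‖a ^ 2 * Lam X a - a' ^ 2 * Lam X a'‖ ≤ lg X / X ^ 2 * ‖a - a'‖ := by
  have h0 : 0 < X ^ 2 := by positivity
  refine (convex_closedBall (0 : ℂ) (2 / 5 / X ^ 2)).norm_image_sub_le_of_norm_hasDerivWithin_le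
    (𝕜 := ℂ) (f := fun a => a ^ 2 * Lam X a)
    (fun z hz => (hasDerivAt_rem (X := X) (a := z) ?_).hasDerivWithinAt) (fun z hz => ?_)
    (mem_closedBall_zero_iff.2 ha') (mem_closedBall_zero_iff.2 ha)
  · have := et_re_ge hX (mem_closedBall_zero_iff.1 hz); linarith
  · have hz' := mem_closedBall_zero_iff.1 hz
    have h1 := Lam_le hX hz'
    have h2 := (et_re_ge hX hz').trans (Complex.re_le_norm _)
    have h3 := lg_ge (X := X) (by linarith)
    have h4 : ‖((X : ℂ) ^ 2 - 2) / 2 / et z X‖ ≤ X ^ 2 := by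
      rw [norm_div, div_le_iff₀ (by linarith)]
      have := norm_half hX
      nlinarith
    refine (norm_sub_le _ _).trans ?_
    rw [norm_mul, norm_mul, norm_mul, norm_pow, Complex.norm_ofNat]
    calc 2 * ‖z‖ * ‖Lam X z‖ + ‖z‖ ^ 2 * ‖((X : ℂ) ^ 2 - 2) / 2 / et z X‖
        ≤ 2 * (2 / 5 / X ^ 2) * lg X + (2 / 5 / X ^ 2) ^ 2 * X ^ 2 := by gcongr
      _ = (4 / 5 * lg X + 4 / 25) / X ^ 2 := by field_simp; ring
      _ ≤ _ := by gcongr; linarith

lemma rem_le (hX : 2 ≤ X) (ha : ‖a‖ ≤ 2 / 5 / X ^ 2) :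
    ‖a ^ 2 * Lam X a‖ ≤ lg X / X ^ 2 * ‖a‖ := by
  have := rem_lip hX (a' := 0) ha (by rw [norm_zero]; positivity)
  simpa using this

lemma Big.small (h : Big X) : El.lg X / X ^ 2 ≤ 1 / 1000 := by
  have h1 := h.lg_le
  have h2 := h.ge
  rw [div_le_iff₀ (by positivity)]
  nlinarith

/-- approximate inverse of `hat X` -/
def inv (X : ℝ) (a : ℂ) : ℂ := a - a ^ 2 * Lam X a

lemma hat_sub (X : ℝ) (a : ℂ) : hat X a - a = a ^ 2 * Lam X a := by unfold hat; ring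

lemma Big.hat_le (h : Big X) (ha : ‖a‖ ≤ 2 / 5 / X ^ 2) : ‖hat X a‖ ≤ 1001 / 1000 * ‖a‖ := by
  have h1 := rem_le (by linarith [h.ge]) ha
  have h2 := mul_le_mul_of_nonneg_right h.small (norm_nonneg a)
  have := norm_add_le a (a ^ 2 * Lam X a)
  unfold hat; linarith

lemma Big.inv_le (h : Big X) (ha : ‖a‖ ≤ 2 / 5 / X ^ 2) : ‖inv X a‖ ≤ 1001 / 1000 * ‖a‖ := by
  have h1 := rem_le (by linarith [h.ge]) ha
  have h2 := mul_le_mul_of_nonneg_right h.small (norm_nonneg a)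
  have := norm_sub_le a (a ^ 2 * Lam X a)
  unfold inv; linarith

lemma Big.sq_le (h : Big X) (ha : ‖a‖ ≤ 2 / 5 / X ^ 2) :
    El.lg X / X ^ 2 * (El.lg X / X ^ 2 * ‖a‖) ≤ X ^ (-5 : ℝ) := by
  have h0 : 0 < X := by linarith [h.ge]
  have h3 := lg_ge (X := X) (by linarith [h.ge])
  rw [Real.rpow_neg h0.le, show (5 : ℝ) = ((5 : ℕ) : ℝ) by norm_num, Real.rpow_natCast]
  calc El.lg X / X ^ 2 * (El.lg X / X ^ 2 * ‖a‖)
      ≤ El.lg X / X ^ 2 * (El.lg X / X ^ 2 * (2 / 5 / X ^ 2)) := by gcongr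
    _ = 2 / 5 * El.lg X ^ 2 / X ^ 6 := by field_simp
    _ ≤ 1 * X / X ^ 6 := by gcongr; · norm_num
                            · exact h.lg
    _ = _ := by field_simp

lemma Big.hat_inv (h : Big X) (ha : ‖a‖ ≤ 2 / 5 / X ^ 2) (ha' : ‖inv X a‖ ≤ 2 / 5 / X ^ 2) :
    ‖hat X (inv X a) - a‖ ≤ X ^ (-5 : ℝ) := by
  have hX : 2 ≤ X := by linarith [h.ge]
  have e : hat X (inv X a) - a = inv X a ^ 2 * Lam X (inv X a) - a ^ 2 * Lam X a := by
    unfold hat; rw [inv]; ring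
  have e2 : inv X a - a = -(a ^ 2 * Lam X a) := by unfold inv; ring
  have h1 := rem_lip hX ha' ha
  rw [e2, norm_neg] at h1
  have h3 := lg_ge (X := X) (by linarith)
  rw [e]
  refine h1.trans (le_trans ?_ (h.sq_le ha))
  gcongr
  exact rem_le hX ha

lemma Big.inv_hat (h : Big X) (ha : ‖a‖ ≤ 2 / 5 / X ^ 2) (ha' : ‖hat X a‖ ≤ 2 / 5 / X ^ 2) :
    ‖inv X (hat X a) - a‖ ≤ X ^ (-5 : ℝ) := by
  have hX : 2 ≤ X := by linarith [h.ge]
  have e : inv X (hat X a) - a = -(hat X a ^ 2 * Lam X (hat X a) - a ^ 2 * Lam X a) := by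
    unfold inv; rw [hat]; ring
  have h1 := rem_lip hX ha' ha
  rw [hat_sub] at h1
  have h3 := lg_ge (X := X) (by linarith)
  rw [e, norm_neg]
  refine h1.trans (le_trans ?_ (h.sq_le ha))
  gcongr
  exact rem_le hX ha

lemma Big.hat_inj (h : Big X) {a' : ℂ} (ha : ‖a‖ ≤ 2 / 5 / X ^ 2) (ha' : ‖a'‖ ≤ 2 / 5 / X ^ 2) :
    ‖a - a'‖ ≤ 2 * ‖hat X a - hat X a'‖ := by
  have h1 := rem_lip (by linarith [h.ge]) ha ha'
  have h2 := mul_le_mul_of_nonneg_right h.small (norm_nonneg (a - a'))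
  have e : a - a' = (hat X a - hat X a') - (a ^ 2 * Lam X a - a' ^ 2 * Lam X a') := by
    unfold hat; ring
  have h3 := norm_sub_le (hat X a - hat X a') (a ^ 2 * Lam X a - a' ^ 2 * Lam X a')
  rw [← e] at h3
  linarith [norm_nonneg (a - a')]

lemma differentiableAt_inv (hX : 2 ≤ X) (ha : ‖a‖ ≤ 2 / 5 / X ^ 2) :
    DifferentiableAt ℂ (inv X) a :=
  differentiableAt_id.sub (hasDerivAt_rem (by have := et_re_ge hX ha; linarith)).differentiableAt

end easy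

section adm

variable {K X : ℝ} {a : ℂ}









end adm

end Crest.Agent.N250.El

end
end

-- ▼ part N250/El/Dy
section

/-!
# Row 250, end limit (helper30): dyadic nested discs and the expansion in the easy regime
-/

set_option autoImplicit false
open Set Filter Topology Metric

noncomputable section

namespace Crest.Agent.N250.El

open Gi (hat Lam)
open B1 (et Adm)
open Nest (Fam cl co)

variable {B W : Type*} [NormedAddCommGroup B] [NormedSpace ℂ B] [NormedAddCommGroup W]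
  [NormedSpace ℂ W] [CompleteSpace W]

/-- dyadic cuts -/
def Xs (X1 : ℝ) (j : ℕ) : ℝ := 2 ^ j * X1

lemma Xs_succ (X1 : ℝ) (j : ℕ) : Xs X1 (j + 1) = 2 * Xs X1 j := by unfold Xs; ring

lemma Xs_ge {X1 : ℝ} (h : 0 ≤ X1) (j : ℕ) : X1 ≤ Xs X1 j :=
  le_mul_of_one_le_left h (one_le_pow₀ one_le_two)

lemma Xs_pos {X1 : ℝ} (h : 0 < X1) (j : ℕ) : 0 < Xs X1 j := by unfold Xs; positivity

lemma Xs_rpow {X1 : ℝ} (h : 0 < X1) (i j : ℕ) (p : ℝ) :
    Xs X1 (i + j) ^ p = Xs X1 i ^ p * ((2 : ℝ) ^ p) ^ j := by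
  have e : Xs X1 (i + j) = Xs X1 i * 2 ^ j := by unfold Xs; ring
  rw [e, Real.mul_rpow (Xs_pos h i).le (by positivity), ← Real.rpow_natCast, ← Real.rpow_natCast,
    ← Real.rpow_mul (by norm_num), ← Real.rpow_mul (by norm_num), mul_comm (j : ℝ) p]

lemma term_eq {X1 ρ : ℝ} (h : 0 < X1) (hρ : 0 < ρ) (E q : ℝ) (n j : ℕ) :
    (2 / (ρ / Xs X1 (j + 1) ^ 2)) ^ n * (E * Xs X1 j ^ q) =
      (8 / ρ) ^ n * E * Xs X1 j ^ (2 * (n : ℝ) + q) := by
  have h0 := Xs_pos h j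
  have e : 2 / (ρ / Xs X1 (j + 1) ^ 2) = 8 / ρ * Xs X1 j ^ 2 := by
    rw [Xs_succ]; field_simp; ring
  rw [e, mul_pow, Real.rpow_add h0, show 2 * (n : ℝ) = ((2 * n : ℕ) : ℝ) by push_cast; ring,
    Real.rpow_natCast, pow_mul]
  ring

lemma exists_dy {X1 X : ℝ} (h : 0 < X1) (hX : 2 * X1 ≤ X) :
    ∃ j, 2 * Xs X1 j ≤ X ∧ X ≤ 4 * Xs X1 j := by
  obtain ⟨j, h1, h2⟩ := exists_nat_pow_near (x := X / (2 * X1)) (y := 2)
    ((one_le_div (by positivity)).2 hX) one_lt_two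
  refine ⟨j, ?_, ?_⟩
  · rw [le_div_iff₀ (by positivity)] at h1; unfold Xs; linarith
  · rw [div_lt_iff₀ (by positivity), pow_succ] at h2; unfold Xs; linarith

theorem nest_pow {U : Set B} {X1 ρ E k M : ℝ} {F : ℕ → B → ℂ → W} (N : ℕ) (h1 : 1 ≤ X1)
    (hρ : 0 < ρ) (hE : 0 ≤ E) (hM : 0 ≤ M) (hk : 0 < k) (hk1 : k ≤ 1)
    (h : Fam U (fun j => ρ / Xs X1 j ^ 2) (fun j => E * Xs X1 j ^ (2 - 2 * (N : ℝ) - k)) M F) :
    (∀ n < N, Summable fun j => (2 / (ρ / Xs X1 (j + 1) ^ 2)) ^ n *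
      (E * Xs X1 j ^ (2 - 2 * (N : ℝ) - k))) ∧
    ∃ C, 0 ≤ C ∧ ∀ i, ∀ b ∈ U, ∀ a ∈ ball (0 : ℂ) (ρ / Xs X1 i ^ 2),
      ‖F i b a - ∑ n ∈ Finset.range N, a ^ n • cl F n b‖ ≤ C * Xs X1 i ^ (2 - 2 * (N : ℝ) - k) := by
  have h0 : 0 < X1 := by linarith
  set q : ℝ := 2 - 2 * (N : ℝ) - k with hq
  have hneg : ∀ n < N, 2 * (n : ℝ) + q < 0 := by
    intro n hn
    have : (n : ℝ) + 1 ≤ N := by exact_mod_cast hn
    linarith
  have hlt : ∀ n < N, (2 : ℝ) ^ (2 * (n : ℝ) + q) < 1 := fun n hn =>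
    Real.rpow_lt_one_of_one_lt_of_neg one_lt_two (hneg n hn)
  have hs : ∀ n < N, ∀ i, HasSum (fun j => (2 / (ρ / Xs X1 (i + j + 1) ^ 2)) ^ n *
      (E * Xs X1 (i + j) ^ q))
      ((8 / ρ) ^ n * E * Xs X1 i ^ (2 * (n : ℝ) + q) * (1 - (2 : ℝ) ^ (2 * (n : ℝ) + q))⁻¹) := by
    intro n hn i
    have := (hasSum_geometric_of_lt_one (by positivity) (hlt n hn)).mul_left
      ((8 / ρ) ^ n * E * Xs X1 i ^ (2 * (n : ℝ) + q))
    refine this.congr_fun ?_ |>.congr_fun fun _ => rfl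
    intro j
    rw [term_eq h0 hρ, Xs_rpow h0]; ring
  have hsum : ∀ n < N, Summable fun j => (2 / (ρ / Xs X1 (j + 1) ^ 2)) ^ n *
      (E * Xs X1 j ^ q) := by
    intro n hn
    simpa only [zero_add] using (hs n hn 0).summable
  refine ⟨hsum, ρ ^ N * ((2 / (ρ / Xs X1 0 ^ 2)) ^ N * M + (8 / ρ) ^ N * E) +
    ∑ n ∈ Finset.range N, 8 ^ n * E * (1 - (2 : ℝ) ^ (2 * (n : ℝ) + q))⁻¹, ?_, ?_⟩
  · have := Xs_pos h0 0
    refine add_nonneg (by positivity) (Finset.sum_nonneg fun n hn => ?_)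
    have := hlt n (Finset.mem_range.1 hn)
    have : 0 < 1 - (2 : ℝ) ^ (2 * (n : ℝ) + q) := by linarith
    positivity
  intro i b hb a ha
  have hX := Xs_pos h0 i
  have hX1 : 1 ≤ Xs X1 i := h1.trans (Xs_ge h0.le i)
  have ha' : ‖a‖ ≤ ρ / Xs X1 i ^ 2 := (mem_ball_zero_iff.1 ha).le
  have hpow : ∀ n : ℕ, ‖a‖ ^ n ≤ ρ ^ n * Xs X1 i ^ (-(2 * (n : ℝ))) := by
    intro n
    refine (pow_le_pow_left₀ (norm_nonneg a) ha' n).trans (le_of_eq ?_)
    rw [Real.rpow_neg hX.le, show 2 * (n : ℝ) = ((2 * n : ℕ) : ℝ) by push_cast; ring,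
      Real.rpow_natCast, pow_mul, div_pow, div_eq_mul_inv]
  refine (h.rem N hsum hb i ha).trans ?_
  rw [add_mul, Finset.sum_mul]
  refine add_le_add ?_ (Finset.sum_le_sum fun n hn => ?_)
  · have hp : (2 : ℝ) ≤ 2 ^ (2 - k) := by
      calc (2 : ℝ) = 2 ^ (1 : ℝ) := by norm_num
        _ ≤ _ := Real.rpow_le_rpow_of_exponent_le one_le_two (by linarith)
    have h2 : ∀ i, ∑ j ∈ Finset.range i, Xs X1 j ^ (2 - k) ≤ Xs X1 i ^ (2 - k) := by
      intro i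
      induction i with
      | zero => simp only [Finset.range_zero, Finset.sum_empty]; have := Xs_pos h0 0; positivity
      | succ i ih =>
        rw [Finset.sum_range_succ, Xs_rpow h0 i 1, pow_one]
        have : 0 ≤ Xs X1 i ^ (2 - k) := by have := Xs_pos h0 i; positivity
        nlinarith
    have h3 : ∑ j ∈ Finset.range i, (2 / (ρ / Xs X1 (j + 1) ^ 2)) ^ N * (E * Xs X1 j ^ q) ≤
        (8 / ρ) ^ N * E * Xs X1 i ^ (2 - k) := by
      simp only [term_eq h0 hρ, show 2 * (N : ℝ) + q = 2 - k by rw [hq]; ring]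
      rw [← Finset.mul_sum]
      gcongr
      exact h2 i
    have h4 : 1 ≤ Xs X1 i ^ (2 - k) := Real.one_le_rpow hX1 (by linarith)
    have h5 : 0 ≤ (2 / (ρ / Xs X1 0 ^ 2)) ^ N * M := by have := Xs_pos h0 0; positivity
    have h6 : Xs X1 i ^ q = Xs X1 i ^ (-(2 * (N : ℝ))) * Xs X1 i ^ (2 - k) := by
      rw [← Real.rpow_add hX]; congr 1; rw [hq]; ring
    calc ‖a‖ ^ N * ((2 / (ρ / Xs X1 0 ^ 2)) ^ N * M +
          ∑ j ∈ Finset.range i, (2 / (ρ / Xs X1 (j + 1) ^ 2)) ^ N * (E * Xs X1 j ^ q))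
        ≤ (ρ ^ N * Xs X1 i ^ (-(2 * (N : ℝ)))) * ((2 / (ρ / Xs X1 0 ^ 2)) ^ N * M *
          Xs X1 i ^ (2 - k) + (8 / ρ) ^ N * E * Xs X1 i ^ (2 - k)) := by
          refine mul_le_mul (hpow N) (add_le_add (le_mul_of_one_le_right h5 h4) h3) ?_
            (by positivity)
          refine add_nonneg h5 (Finset.sum_nonneg fun j _ => ?_)
          have := Xs_pos h0 j
          have := Xs_pos h0 (j + 1)
          positivity
      _ = _ := by rw [h6]; ring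
  · have hn' := Finset.mem_range.1 hn
    have h2 := hlt n hn'
    have h3 : 0 < 1 - (2 : ℝ) ^ (2 * (n : ℝ) + q) := by linarith
    rw [(hs n hn' i).tsum_eq]
    have h6 : Xs X1 i ^ q = Xs X1 i ^ (-(2 * (n : ℝ))) * Xs X1 i ^ (2 * (n : ℝ) + q) := by
      rw [← Real.rpow_add hX]; congr 1; ring
    calc ‖a‖ ^ n * ((8 / ρ) ^ n * E * Xs X1 i ^ (2 * (n : ℝ) + q) *
          (1 - (2 : ℝ) ^ (2 * (n : ℝ) + q))⁻¹)
        ≤ (ρ ^ n * Xs X1 i ^ (-(2 * (n : ℝ)))) * ((8 / ρ) ^ n * E * Xs X1 i ^ (2 * (n : ℝ) + q) *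
          (1 - (2 : ℝ) ^ (2 * (n : ℝ) + q))⁻¹) := by gcongr; exact hpow n
      _ = _ := by rw [h6, div_pow]; field_simp

end Crest.Agent.N250.El

end
end

-- ▼ part N250/El/Exp

/-!
# Row 250, end limit (helper30): the expansion in the easy regime
-/

set_option autoImplicit false
open Set Filter Topology Metric

noncomputable section

namespace Crest.Agent.N250.El

open Gi (hat Lam)
open B1 (et Adm)
open Nest (Fam cl co)

variable {B W : Type*} [NormedAddCommGroup B] [NormedSpace ℂ B] [NormedAddCommGroup W]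
  [NormedSpace ℂ W]

namespace Dr0

variable {e0 : ℝ → ℂ → B → W} {U : Set B} {c k C X0 : ℝ}

omit [NormedSpace ℂ B] in
lemma rp5 {X : ℝ} (hX : 1 ≤ X) (hk : k ≤ 1) : X ^ (-5 : ℝ) ≤ X ^ (-(4 + k)) :=
  Real.rpow_le_rpow_of_exponent_le hX (by linarith)

lemma mono (h : Dr0 e0 U c k C X0) {C' X1 : ℝ} (hC : C ≤ C') (h1 : X0 ≤ X1) (h0 : 0 ≤ X1) :
    Dr0 e0 U c k C' X1 where
  opn := h.opn
  c_pos := h.c_pos
  c_le := h.c_le
  k_pos := h.k_pos
  k_le := h.k_le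
  hola X hX := h.hola X (h1.trans hX)
  holb X hX := h.holb X (h1.trans hX)
  bd X hX a ha b hb := (h.bd X (h1.trans hX) a ha b hb).trans hC
  drift X X' hX h2 h3 a ha ha' b hb := by
    obtain ⟨τ, t1, t2, t3⟩ := h.drift X X' (h1.trans hX) h2 h3 a ha ha' b hb
    have : C * X ^ (-(4 + k)) ≤ C' * X ^ (-(4 + k)) :=
      mul_le_mul_of_nonneg_right hC (Real.rpow_nonneg (h0.trans hX) _)
    exact ⟨τ, t1, t2.trans this, t3.trans this⟩

lemma le25 (h : Dr0 e0 U c k C X0) {X t : ℝ} (ht : t ≤ 4) {a : ℂ}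
    (ha : ‖a‖ ≤ t * c / X ^ 2) : ‖a‖ ≤ 2 / 5 / X ^ 2 := by
  refine ha.trans (div_le_div_of_nonneg_right ?_ (by positivity))
  have := h.c_pos; have := h.c_le; nlinarith

lemma crude (h : Dr0 e0 U c k C X0) {X : ℝ} (hX : X0 ≤ X) (h0 : 0 < X) {b : B} (hb : b ∈ U)
    {τ σ : ℂ} (hτ : ‖τ‖ ≤ 3 * c / X ^ 2) (hσ : ‖σ‖ ≤ 3 * c / X ^ 2) :
    ‖e0 X τ b - e0 X σ b‖ ≤ 2 * C / c * X ^ 2 * ‖τ - σ‖ := by
  have hc := h.c_pos
  have := lip_of_bd (f := fun a => e0 X a b) (S := closedBall 0 (3 * c / X ^ 2))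
    (δ := c / 2 / X ^ 2) (convex_closedBall _ _) isOpen_ball (by positivity) (fun a ha => ?_)
    (h.hola X hX b hb) (fun z hz => h.bd X hX z hz b hb) (mem_closedBall_zero_iff.2 hτ)
    (mem_closedBall_zero_iff.2 hσ)
  · refine this.trans (le_of_eq ?_); field_simp
  · refine closedBall_subset_ball' ?_
    have h1 := mem_closedBall.1 ha
    have e : 4 * c / X ^ 2 = c / 2 / X ^ 2 + 3 * c / X ^ 2 + c / 2 / X ^ 2 := by ring
    have : 0 < c / 2 / X ^ 2 := by positivity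
    linarith

lemma step (h : Dr0 e0 U c k C X0) (hC : 0 ≤ C) {X X' L : ℝ} (hX : X0 ≤ X) (hB : Big X)
    (h1 : X ≤ X') (h2 : X' ≤ 4 * X) {b : B} (hb : b ∈ U) (hL0 : 0 ≤ L)
    (hL : ∀ τ σ : ℂ, ‖τ‖ ≤ 2 * c / X ^ 2 → ‖σ‖ ≤ 2 * c / X ^ 2 →
      ‖e0 X τ b - e0 X σ b‖ ≤ L * ‖τ - σ‖) {a u : ℂ} (ha : ‖a‖ ≤ 4 * c / X' ^ 2)
    (ha' : ‖a‖ ≤ c / X ^ 2) (hu : ‖u‖ ≤ 3 / 2 * c / X ^ 2) (hau : ‖hat X' a - u‖ ≤ X ^ (-5 : ℝ)) :
    ‖e0 X' a b - e0 X (inv X u) b‖ ≤ (C + L * (2 * C + 4)) * X ^ (-(4 + k)) := by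
  obtain ⟨τ, t1, t2, t3⟩ := h.drift X X' hX h1 h2 a ha ha' b hb
  have hc := h.c_pos
  have h0 : 0 < X := by linarith [hB.ge]
  have hu' := h.le25 (by norm_num) hu
  have hσ : ‖inv X u‖ ≤ 2 * c / X ^ 2 := by
    refine (hB.inv_le hu').trans ?_
    have e1 : 3 / 2 * c / X ^ 2 = 3 / 2 * (c / X ^ 2) := by ring
    have e2 : 2 * c / X ^ 2 = 2 * (c / X ^ 2) := by ring
    have : 0 ≤ c / X ^ 2 := by positivity
    linarith
  have hσ' := h.le25 (by norm_num) hσ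
  have h3 := hB.hat_inv hu' hσ'
  have h4 := hB.hat_inj (h.le25 (by norm_num) t1) hσ'
  have h5 := rp5 (X := X) (by linarith [hB.ge]) h.k_le
  have h6 : ‖hat X τ - hat X (inv X u)‖ ≤ (C + 2) * X ^ (-(4 + k)) := by
    have e : hat X τ - hat X (inv X u) = (hat X τ - hat X' a) + (hat X' a - u) -
        (hat X (inv X u) - u) := by ring
    have a1 := norm_sub_le ((hat X τ - hat X' a) + (hat X' a - u)) (hat X (inv X u) - u)
    have a2 := norm_add_le (hat X τ - hat X' a) (hat X' a - u)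
    rw [e]; linarith
  have h7 := hL τ _ t1 hσ
  have h8 : L * ‖τ - inv X u‖ ≤ L * (2 * ((C + 2) * X ^ (-(4 + k)))) := by gcongr; linarith
  have h9 := norm_add_le (e0 X' a b - e0 X τ b) (e0 X τ b - e0 X (inv X u) b)
  rw [sub_add_sub_cancel] at h9
  linarith

lemma fam (h : Dr0 e0 U c k C X0) (hC : 0 ≤ C) (hX0 : 6561 ≤ X0) (L : ℕ → ℝ) (hL0 : ∀ j, 0 ≤ L j)
    (hL : ∀ j, ∀ b ∈ U, ∀ τ σ : ℂ, ‖τ‖ ≤ 2 * c / Xs X0 j ^ 2 → ‖σ‖ ≤ 2 * c / Xs X0 j ^ 2 →
      ‖e0 (Xs X0 j) τ b - e0 (Xs X0 j) σ b‖ ≤ L j * ‖τ - σ‖) (ε : ℕ → ℝ)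
    (hε : ∀ j, (C + L j * (2 * C + 4)) * Xs X0 j ^ (-(4 + k)) ≤ ε j) :
    Fam U (fun j => 3 * c / Xs X0 j ^ 2) ε C
      (fun j b u => e0 (Xs X0 j) (inv (Xs X0 j) u) b) := by
  have hc := h.c_pos
  have h0 : 0 < X0 := by linarith
  have hge : ∀ j, X0 ≤ Xs X0 j := Xs_ge h0.le
  have hB : ∀ j, Big (Xs X0 j) := fun j => big_of (hX0.trans (hge j))
  have hin : ∀ j, ∀ u ∈ ball (0 : ℂ) (3 * c / Xs X0 j ^ 2),
      inv (Xs X0 j) u ∈ ball (0 : ℂ) (4 * c / Xs X0 j ^ 2) := by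
    intro j u hu
    have hu' := mem_ball_zero_iff.1 hu
    have h1 := (hB j).inv_le (h.le25 (by norm_num) hu'.le)
    have e1 : 3 * c / Xs X0 j ^ 2 = 3 * (c / Xs X0 j ^ 2) := by ring
    have e2 : 4 * c / Xs X0 j ^ 2 = 4 * (c / Xs X0 j ^ 2) := by ring
    have : 0 < c / Xs X0 j ^ 2 := by have := Xs_pos h0 j; positivity
    rw [mem_ball_zero_iff]; linarith
  refine ⟨fun j => by have := Xs_pos h0 j; positivity, fun j => ?_,
    fun b hb u hu => h.bd _ (hge 0) _ (hin 0 u hu) b hb, fun j b hb => ?_,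
    fun j u hu => h.holb _ (hge j) _ (hin j u hu), fun j b hb u hu => ?_⟩
  · have := Xs_pos h0 j
    rw [Xs_succ]
    gcongr; linarith
  · refine (h.hola _ (hge j) b hb).comp (fun u hu => ?_) (hin j)
    exact (differentiableAt_inv (by linarith [(hB j).ge])
      (h.le25 (by norm_num) (mem_ball_zero_iff.1 hu).le)).differentiableWithinAt
  · have hX := Xs_pos h0 j
    have h1 := (mem_ball_zero_iff.1 (hin (j + 1) u hu)).le
    have hu' := (mem_ball_zero_iff.1 hu).le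
    have h2 := (hB (j + 1)).hat_inv (h.le25 (by norm_num) hu') (h.le25 le_rfl h1)
    refine le_trans (h.step hC (hge j) (hB j) (by rw [Xs_succ]; linarith)
      (by rw [Xs_succ]; linarith) hb (hL0 j) (hL j b hb) h1 (h1.trans (le_of_eq ?_))
      (hu'.trans ?_) (h2.trans ?_)) (hε j)
    · rw [Xs_succ]; field_simp; ring
    · rw [Xs_succ]
      have e1 : 3 * c / (2 * Xs X0 j) ^ 2 = 3 / 4 * (c / Xs X0 j ^ 2) := by field_simp; ring
      have e2 : 3 / 2 * c / Xs X0 j ^ 2 = 3 / 2 * (c / Xs X0 j ^ 2) := by ring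
      have : 0 ≤ c / Xs X0 j ^ 2 := by positivity
      linarith
    · exact Real.rpow_le_rpow_of_nonpos hX (by rw [Xs_succ]; linarith) (by norm_num)

variable [CompleteSpace W]

lemma exp' (h : Dr0 e0 U c k C X0) (hC : 0 ≤ C) (hX0 : 6561 ≤ X0) :
    ∃ c0 c1 c2 A, Exp e0 U c c0 c1 c2 A := by
  have hc := h.c_pos
  have hc' := h.c_le
  have h0 : 0 < X0 := by linarith
  have hge : ∀ j, X0 ≤ Xs X0 j := Xs_ge h0.le
  have hB : ∀ j, Big (Xs X0 j) := fun j => big_of (hX0.trans (hge j))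
  have hp : ∀ j, 0 < Xs X0 j := Xs_pos h0
  have hup : ∀ {j : ℕ} {τ : ℂ}, ‖τ‖ ≤ 2 * c / Xs X0 j ^ 2 → ‖τ‖ ≤ 3 * c / Xs X0 j ^ 2 := by
    intro j τ hτ
    refine hτ.trans ?_
    gcongr; norm_num
  set F : ℕ → B → ℂ → W := fun j b u => e0 (Xs X0 j) (inv (Xs X0 j) u) b with hF
  -- first pass
  have f1 := h.fam hC hX0 (fun j => 2 * C / c * Xs X0 j ^ 2) (fun j => by positivity)
    (fun j b hb τ σ hτ hσ => h.crude (hge j) (hp j) hb (hup hτ) (hup hσ))
    (fun j => (C + 2 * C / c * (2 * C + 4)) * Xs X0 j ^ (2 - 2 * ((2 : ℕ) : ℝ) - k)) (by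
      intro j
      have e : Xs X0 j ^ (2 - 2 * ((2 : ℕ) : ℝ) - k) = Xs X0 j ^ 2 * Xs X0 j ^ (-(4 + k)) := by
        rw [← Real.rpow_natCast, ← Real.rpow_add (hp j)]; congr 1; push_cast; ring
      have h1 : 1 ≤ Xs X0 j ^ 2 := one_le_pow₀ (by linarith [(hB j).ge])
      have h2 : 0 ≤ Xs X0 j ^ (-(4 + k)) := by have := hp j; positivity
      rw [e, ← mul_assoc]
      gcongr
      nlinarith)
  obtain ⟨s1, C1, hC1, r1⟩ := nest_pow 2 (by linarith) (by positivity) (by positivity) hC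
    h.k_pos h.k_le f1
  obtain ⟨A1, hA1⟩ : ∃ A1, ∀ b ∈ U, ‖cl F 1 b‖ ≤ A1 := ⟨_, fun b hb => f1.cl_le (s1 1 (by norm_num)) hb⟩
  -- uniform Lipschitz bound
  have hL : ∀ j, ∀ b ∈ U, ∀ τ σ : ℂ, ‖τ‖ ≤ 2 * c / Xs X0 j ^ 2 → ‖σ‖ ≤ 2 * c / Xs X0 j ^ 2 →
      ‖e0 (Xs X0 j) τ b - e0 (Xs X0 j) σ b‖ ≤ 4 / c * (2 * C / c + C1 + |A1|) * ‖τ - σ‖ := by
    intro j b hb τ σ hτ hσ
    have hX := hp j
    have hX1 : 1 ≤ Xs X0 j := by linarith [(hB j).ge]
    set X := Xs X0 j with hXdef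
    have hq : 0 < c / X ^ 2 := by positivity
    have := lip_of_bd (f := fun a => e0 X a b - cl F 0 b) (S := closedBall 0 (2 * c / X ^ 2))
      (T := ball 0 (5 / 2 * c / X ^ 2)) (M := (2 * C / c + C1 + |A1|) / X ^ 2)
      (δ := c / 4 / X ^ 2) (convex_closedBall _ _) isOpen_ball (by positivity) (fun a ha => ?_)
      (((h.hola X (hge j) b hb).mono (ball_subset_ball ?_)).sub_const _) (fun z hz => ?_)
      (mem_closedBall_zero_iff.2 hτ) (mem_closedBall_zero_iff.2 hσ)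
    · rw [sub_sub_sub_cancel_right] at this
      refine this.trans (le_of_eq ?_); field_simp
    · refine closedBall_subset_ball' ?_
      have h1 := mem_closedBall.1 ha
      have e : 5 / 2 * c / X ^ 2 = c / 4 / X ^ 2 + 2 * c / X ^ 2 + c / 4 / X ^ 2 := by ring
      have : 0 < c / 4 / X ^ 2 := by positivity
      linarith
    · gcongr; norm_num
    · have hz' := (mem_ball_zero_iff.1 hz).le
      have e1 : 5 / 2 * c / X ^ 2 = 5 / 2 * (c / X ^ 2) := by ring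
      have e2 : 3 * c / X ^ 2 = 3 * (c / X ^ 2) := by ring
      have a1 := (hB j).hat_le (h.le25 (by norm_num) hz')
      have a2 : ‖hat X z‖ < 3 * c / X ^ 2 := by linarith
      have a3 := (hB j).inv_le (h.le25 (by norm_num) a2.le)
      have a4 := (hB j).inv_hat (h.le25 (by norm_num) hz') (h.le25 (by norm_num) a2.le)
      have a5 := h.crude (hge j) hX hb (τ := z) (σ := inv X (hat X z)) (by linarith) (by linarith)
      have a6 := r1 j b hb (hat X z) (mem_ball_zero_iff.2 a2)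
      simp only [Finset.sum_range_succ, Finset.range_zero, Finset.sum_empty, zero_add, pow_zero,
        one_smul, pow_one] at a6
      have a7 : ‖hat X z • cl F 1 b‖ ≤ |A1| / X ^ 2 := by
        rw [norm_smul]
        calc ‖hat X z‖ * ‖cl F 1 b‖ ≤ (1 / X ^ 2) * |A1| := by
              gcongr
              · refine a2.le.trans ?_; gcongr; linarith
              · exact (hA1 b hb).trans (le_abs_self _)
          _ = _ := by ring
      have a8 : X ^ (2 - 2 * ((2 : ℕ) : ℝ) - k) ≤ 1 / X ^ 2 := by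
        rw [one_div, ← Real.rpow_natCast, ← Real.rpow_neg hX.le]
        exact Real.rpow_le_rpow_of_exponent_le hX1 (by push_cast; linarith [h.k_pos])
      have a9 : X ^ 2 * X ^ (-5 : ℝ) ≤ 1 / X ^ 2 := by
        rw [one_div, ← Real.rpow_natCast, ← Real.rpow_neg hX.le, ← Real.rpow_add hX]
        exact Real.rpow_le_rpow_of_exponent_le hX1 (by push_cast; linarith)
      have b1 : 2 * C / c * X ^ 2 * ‖z - inv X (hat X z)‖ ≤ 2 * C / c * (1 / X ^ 2) := by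
        rw [norm_sub_rev, mul_assoc]
        gcongr
        exact le_trans (by gcongr) a9
      have b2 : C1 * X ^ (2 - 2 * ((2 : ℕ) : ℝ) - k) ≤ C1 * (1 / X ^ 2) := by gcongr
      have e3 : e0 X z b - cl F 0 b = (e0 X z b - e0 X (inv X (hat X z)) b) +
          (e0 X (inv X (hat X z)) b - (cl F 0 b + hat X z • cl F 1 b)) + hat X z • cl F 1 b := by
        abel
      have e4 : (2 * C / c + C1 + |A1|) / X ^ 2 =
          2 * C / c * (1 / X ^ 2) + C1 * (1 / X ^ 2) + |A1| / X ^ 2 := by ring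
      rw [e3, e4]
      exact norm_add₃_le.trans (add_le_add (add_le_add (a5.trans b1) (a6.trans b2)) a7)
  -- second pass
  set L := 4 / c * (2 * C / c + C1 + |A1|) with hLdef
  have hL0 : 0 ≤ L := by positivity
  have e3 : 2 - 2 * ((3 : ℕ) : ℝ) - k = -(4 + k) := by push_cast; ring
  have f2 := h.fam hC hX0 (fun _ => L) (fun _ => hL0) hL
    (fun j => (C + L * (2 * C + 4)) * Xs X0 j ^ (2 - 2 * ((3 : ℕ) : ℝ) - k))
    (fun j => by rw [e3])
  obtain ⟨s2, C2, hC2, r2⟩ := nest_pow 3 (by linarith) (by positivity) (by positivity) hC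
    h.k_pos h.k_le f2
  obtain ⟨A0, hA0⟩ : ∃ A0, ∀ b ∈ U, ‖cl F 0 b‖ ≤ A0 := ⟨_, fun b hb => f2.cl_le (s2 0 (by norm_num)) hb⟩
  obtain ⟨A2, hA2⟩ : ∃ A2, ∀ b ∈ U, ‖cl F 2 b‖ ≤ A2 := ⟨_, fun b hb => f2.cl_le (s2 2 (by norm_num)) hb⟩
  have ex : ∀ X, 2 * X0 ≤ X → ∀ τ : ℂ, ‖τ‖ ≤ 2 * c / X ^ 2 → ∀ b ∈ U,
      ‖e0 X τ b - (cl F 0 b + hat X τ • cl F 1 b + hat X τ ^ 2 • cl F 2 b)‖ ≤
        (C + L * (2 * C + 4) + C2) * 4 ^ 5 * X ^ (-(4 + k)) := by
    intro X hX τ hτ b hb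
    obtain ⟨j, j1, j2⟩ := exists_dy h0 hX
    have hY := hp j
    have hX' : 0 < X := by linarith
    have hBX : Big X := big_of (by linarith)
    have hq : 0 < c / Xs X0 j ^ 2 := by positivity
    have a0 : ‖τ‖ ≤ 1 / 2 * (c / Xs X0 j ^ 2) := by
      refine hτ.trans ?_
      calc 2 * c / X ^ 2 ≤ 2 * c / (2 * Xs X0 j) ^ 2 := by gcongr
        _ = _ := by field_simp
    have a1 := hBX.hat_le (h.le25 (by norm_num) hτ)
    have e1 : 3 / 2 * c / Xs X0 j ^ 2 = 3 / 2 * (c / Xs X0 j ^ 2) := by ring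
    have e2 : 3 * c / Xs X0 j ^ 2 = 3 * (c / Xs X0 j ^ 2) := by ring
    have a2 := h.step hC (hge j) (hB j) (X' := X) (by linarith) j2 hb hL0 (hL j b hb) (a := τ)
      (u := hat X τ) (hτ.trans (by gcongr; norm_num)) (by linarith) (by linarith)
      (by rw [sub_self, norm_zero]; positivity)
    have a3 := r2 j b hb (hat X τ) (mem_ball_zero_iff.2 (by linarith))
    simp only [Finset.sum_range_succ, Finset.range_zero, Finset.sum_empty, zero_add, pow_zero,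
      one_smul, pow_one] at a3
    rw [e3] at a3
    have a4 : Xs X0 j ^ (-(4 + k)) ≤ 4 ^ 5 * X ^ (-(4 + k)) := by
      calc Xs X0 j ^ (-(4 + k)) ≤ (4⁻¹ * X) ^ (-(4 + k)) :=
            Real.rpow_le_rpow_of_nonpos (by positivity) (by linarith) (by linarith [h.k_pos])
        _ = 4 ^ (4 + k) * X ^ (-(4 + k)) := by
            rw [Real.mul_rpow (by norm_num) hX'.le, Real.inv_rpow (by norm_num),
              ← Real.rpow_neg (by norm_num), neg_neg]
        _ ≤ 4 ^ ((5 : ℕ) : ℝ) * X ^ (-(4 + k)) := by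
            gcongr
            · norm_num
            · push_cast; linarith [h.k_le]
        _ = _ := by rw [Real.rpow_natCast]
    have a5 := norm_add_le (e0 X τ b - e0 (Xs X0 j) (inv (Xs X0 j) (hat X τ)) b)
      (e0 (Xs X0 j) (inv (Xs X0 j) (hat X τ)) b -
        (cl F 0 b + hat X τ • cl F 1 b + hat X τ ^ 2 • cl F 2 b))
    rw [sub_add_sub_cancel] at a5
    calc _ ≤ (C + L * (2 * C + 4) + C2) * Xs X0 j ^ (-(4 + k)) := by
          rw [add_mul _ C2]; exact a5.trans (add_le_add a2 a3)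
      _ ≤ (C + L * (2 * C + 4) + C2) * (4 ^ 5 * X ^ (-(4 + k))) := by gcongr
      _ = _ := by ring
  set C3 := (C + L * (2 * C + 4) + C2) * 4 ^ 5 with hC3
  have hat0 : ∀ X, hat X 0 = 0 := fun X => by simp [hat]
  refine ⟨cl F 0, cl F 1, cl F 2, max A0 (max A1 A2), f2.cl_diff h.opn (s2 0 (by norm_num)),
    f2.cl_diff h.opn (s2 1 (by norm_num)), f2.cl_diff h.opn (s2 2 (by norm_num)),
    fun b hb => (hA0 b hb).trans (le_max_left _ _),
    fun b hb => (hA1 b hb).trans ((le_max_left _ _).trans (le_max_right _ _)),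
    fun b hb => (hA2 b hb).trans ((le_max_right _ _).trans (le_max_right _ _)),
    ⟨C3, k, 2 * X0, h.k_pos, ex⟩, fun b hb => ?_, fun b hb => ?_⟩
  · rw [tendsto_iff_norm_sub_tendsto_zero]
    refine squeeze_zero' (Eventually.of_forall fun _ => norm_nonneg _) ?_
      (by simpa using (tendsto_rpow_neg_atTop (show 0 < 4 + k by linarith [h.k_pos])).const_mul C3)
    filter_upwards [eventually_ge_atTop (2 * X0)] with X hX
    have := ex X hX 0 (by rw [norm_zero]; positivity) b hb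
    simpa [hat0] using this
  · rw [tendsto_iff_norm_sub_tendsto_zero]
    refine squeeze_zero' (g := fun X => C3 / c * X ^ (-(2 + k)))
      (Eventually.of_forall fun _ => norm_nonneg _) ?_
      (by simpa using
        (tendsto_rpow_neg_atTop (show 0 < 2 + k by linarith [h.k_pos])).const_mul (C3 / c))
    filter_upwards [eventually_ge_atTop (2 * X0)] with X hX
    have hX' : 0 < X := by linarith
    have hq : 0 < c / X ^ 2 := by positivity
    have hd : ∀ z : ℂ, ‖z‖ ≤ 2 * c / X ^ 2 → DifferentiableAt ℂ (fun a => e0 X a b) z ∧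
        ∃ d, HasDerivAt (hat X) d z ∧ (z = 0 → d = 1) := by
      intro z hz
      refine ⟨(h.hola X (by linarith) b hb).differentiableAt (isOpen_ball.mem_nhds
        (mem_ball_zero_iff.2 (hz.trans_lt (by gcongr; norm_num)))), _, hasDerivAt_hat' ?_, ?_⟩
      · have := et_re_ge (X := X) (by linarith) (h.le25 (by norm_num) hz); linarith
      · rintro rfl; simp
    have hder : ∀ z : ℂ, ‖z‖ ≤ 2 * c / X ^ 2 → ∀ d, HasDerivAt (hat X) d z →
        HasDerivAt (fun a => e0 X a b - (cl F 0 b + hat X a • cl F 1 b + hat X a ^ 2 • cl F 2 b))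
          (deriv (fun a => e0 X a b) z - (d • cl F 1 b + (2 * hat X z * d) • cl F 2 b)) z := by
      intro z hz d hd'
      refine (hd z hz).1.hasDerivAt.sub (((hd'.smul_const _).const_add _).add ?_)
      simpa using (hd'.pow 2).smul_const (cl F 2 b)
    obtain ⟨d, d1, d2⟩ := (hd 0 (by rw [norm_zero]; positivity)).2
    have h1 := (hder 0 (by rw [norm_zero]; positivity) d d1).deriv
    rw [d2 rfl, hat0] at h1
    have h2 := Complex.norm_deriv_le_of_forall_mem_sphere_norm_le (c := 0) (R := c / X ^ 2)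
      (C := C3 * X ^ (-(4 + k)))
      (f := fun a => e0 X a b - (cl F 0 b + hat X a • cl F 1 b + hat X a ^ 2 • cl F 2 b)) hq ?_ ?_
    · rw [h1] at h2
      simp only [one_smul, mul_zero, zero_mul, zero_smul, add_zero] at h2
      refine h2.trans (le_of_eq ?_)
      have e : X ^ (-(2 + k)) = X ^ 2 * X ^ (-(4 + k)) := by
        rw [← Real.rpow_natCast, ← Real.rpow_add hX']; congr 1; push_cast; ring
      rw [e]; field_simp
    · refine DifferentiableOn.diffContOnCl ?_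
      rw [closure_ball _ hq.ne']
      intro z hz
      have hz' : ‖z‖ ≤ 2 * c / X ^ 2 := (mem_closedBall_zero_iff.1 hz).trans (by gcongr; linarith)
      obtain ⟨d, d1, -⟩ := (hd z hz').2
      exact (hder z hz' d d1).differentiableAt.differentiableWithinAt
    · intro z hz
      exact ex X hX z ((mem_sphere_zero_iff_norm.1 hz).le.trans (by gcongr; linarith)) b hb

/-- the limits and the expansion to second order -/
theorem exp (h : Dr0 e0 U c k C X0) : ∃ c0 c1 c2 A, Exp e0 U c c0 c1 c2 A :=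
  (h.mono (le_max_left C 0) (le_max_left X0 6561) (le_trans (by norm_num) (le_max_right _ _))).exp'
    (le_max_right _ _) (le_max_right _ _)

end Dr0

end Crest.Agent.N250.El

end
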